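import Vale.Agent.P297.H637.Z2.Fam6
import Vale.Agent.P297.H55.Z2.Deg

/-!
The family of the two-sections over the conic `s ^ 2 = A2`: the polynomials `HP` and `GP` in `Y`
at a point of the conic.
-/

set_option linter.unusedSectionVars false
set_option linter.unusedVariables false

open Polynomial

namespace Vale.Agent.P297.H54.Z2

open Vale.Agent.P297 Vale.Agent.P297.Z2 Vale.Agent.P297.Gen Vale.Agent.P297.H72
open Vale.Agent.P297.H160.Z2Irr

section map

variable {R : Type} [CommRing R] (D : FP R) (u v : R)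

theorem dl_C : (D.map C).dl (C u) (C v) = (C (D.dl u v) : R[X]) := by
  simp only [FP.map, FP.dl, C_sub, C_mul, C_pow]

theorem ht_C : (D.map C).ht (C u) (C v) = (C (D.ht u v) : R[X]) := by
  simp only [FP.map, FP.ht, C_sub, C_mul, C_pow, map_ofNat]

theorem pt_C : (D.map C).pt (C u) (C v) = (C (D.pt u v) : R[X]) := by
  unfold FP.pt
  rw [dl_C, ht_C]
  simp only [FP.map, C_add, C_mul]

theorem rt_C : (D.map C).rt (C u) (C v) = (C (D.rt u v) : R[X]) := by
  unfold FP.rt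
  rw [dl_C, ht_C]
  simp only [FP.map, C_add, C_mul]

theorem st_C : (D.map C).st (C u) (C v) = (C (D.st u v) : R[X]) := by
  simp only [FP.map, FP.st, C_sub, C_add, C_mul, C_pow, C_neg]

theorem wt_C : (D.map C).wt (C u) (C v) = (C (D.wt u v) : R[X]) := by
  unfold FP.wt
  rw [dl_C, ht_C, st_C]
  simp only [FP.map, C_add, C_mul]

theorem S1_C (Y : R[X]) : (D.map C).S1 (C u) (C v) Y = C (D.wt u v) + C (D.st u v) * Y +
    2 * (C D.al * C (D.pt u v) + C D.be * C (D.rt u v)) * Y +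
      (C D.al ^ 2 - C D.be ^ 2) * C (D.dl u v) * Y ^ 2 := by
  unfold FP.S1
  rw [dl_C, pt_C, rt_C, st_C, wt_C]
  rfl

end map

section field

variable {L : Type} [Field L] [Algebra ℂ L] {P : Par} {D : FP L} {u v : L}

theorem HP_aux (hδ : D.dl u v ≠ 0) : D.HP P u v = C (D.dl u v ^ 3) *
    ((C (D.st u v / D.dl u v) * X + C (D.wt u v / D.dl u v -
      ((D.pt u v / D.dl u v) ^ 2 - (D.rt u v / D.dl u v) ^ 2))) ^ 2 -
      tB P (C D.l) (C D.al * X + C (D.pt u v / D.dl u v))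
        (C (-D.be) * X + C (D.rt u v / D.dl u v)) X) := by
  unfold FP.HP FP.hY
  rw [dl_C, pt_C, rt_C, S1_C]
  obtain ⟨p, hp⟩ : ∃ p, p = D.pt u v / D.dl u v := ⟨_, rfl⟩
  obtain ⟨r, hr⟩ : ∃ r, r = D.rt u v / D.dl u v := ⟨_, rfl⟩
  obtain ⟨s, hs⟩ : ∃ s, s = D.st u v / D.dl u v := ⟨_, rfl⟩
  obtain ⟨w, hw⟩ : ∃ w, w = D.wt u v / D.dl u v := ⟨_, rfl⟩
  have hp' : D.pt u v = D.dl u v * p := by rw [hp]; field_simp
  have hr' : D.rt u v = D.dl u v * r := by rw [hr]; field_simp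
  have hs' : D.st u v = D.dl u v * s := by rw [hs]; field_simp
  have hw' : D.wt u v = D.dl u v * w := by rw [hw]; field_simp
  rw [← hp, ← hr, ← hs, ← hw, hp', hr', hs', hw']
  obtain ⟨δ, hδ'⟩ : ∃ δ, δ = D.dl u v := ⟨_, rfl⟩
  rw [← hδ']
  have h1 := tCb_smul P (C D.l : L[X]) X (C δ) 1 (C D.al * X + C p) (C (-D.be) * X + C r)
    (C w + C s * X + 2 * (C D.al * C p + C D.be * C r) * X + (C D.al ^ 2 - C D.be ^ 2) * X ^ 2)
  rw [tCb_eq] at h1
  rw [C_pow, show ((C s * X + C (w - (p ^ 2 - r ^ 2))) : L[X]) =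
    -((C D.al * X + C p) ^ 2 - (C (-D.be) * X + C r) ^ 2) + (C w + C s * X +
      2 * (C D.al * C p + C D.be * C r) * X + (C D.al ^ 2 - C D.be ^ 2) * X ^ 2) by
        simp only [C_sub, C_neg, C_pow]
        ring, ← h1]
  have k1 : (D.map C).l = (C D.l : L[X]) := rfl
  have k2 : (D.map C).al = (C D.al : L[X]) := rfl
  have k3 : (D.map C).be = (C D.be : L[X]) := rfl
  have k4 : C (δ * p) + C D.al * C δ * X = C δ * (C D.al * X + C p) := by
    rw [C_mul]
    ring
  have k5 : C (δ * r) - C D.be * C δ * X = C δ * (C (-D.be) * X + C r) := by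
    rw [C_mul, C_neg]
    ring
  have k6 : C (δ * w) + C (δ * s) * X + 2 * (C D.al * C (δ * p) + C D.be * C (δ * r)) * X +
      (C D.al ^ 2 - C D.be ^ 2) * C δ * X ^ 2 = C δ * (C w + C s * X +
        2 * (C D.al * C p + C D.be * C r) * X + (C D.al ^ 2 - C D.be ^ 2) * X ^ 2) := by
    simp only [C_mul]
    ring
  rw [k1, k2, k3, k4, k5, k6, mul_one]

theorem GP_aux (hδ : D.dl u v ≠ 0) : D.GP P u v = C (D.dl u v ^ 2) *
    (2 * tPhi P (C D.l) (C D.al * X + C (D.pt u v / D.dl u v))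
        (C (-D.be) * X + C (D.rt u v / D.dl u v)) X
        (C (D.st u v / D.dl u v) * X + C (D.wt u v / D.dl u v -
          ((D.pt u v / D.dl u v) ^ 2 - (D.rt u v / D.dl u v) ^ 2))) +
      (dat P (X : L[X])).g * fU P X * fV P X *
      ((C (D.st u v / D.dl u v) * X + C (D.wt u v / D.dl u v -
      ((D.pt u v / D.dl u v) ^ 2 - (D.rt u v / D.dl u v) ^ 2))) ^ 2 -
      tB P (C D.l) (C D.al * X + C (D.pt u v / D.dl u v))
        (C (-D.be) * X + C (D.rt u v / D.dl u v)) X)) := by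
  unfold FP.GP FP.gY
  rw [dl_C, pt_C, rt_C, S1_C]
  obtain ⟨p, hp⟩ : ∃ p, p = D.pt u v / D.dl u v := ⟨_, rfl⟩
  obtain ⟨r, hr⟩ : ∃ r, r = D.rt u v / D.dl u v := ⟨_, rfl⟩
  obtain ⟨s, hs⟩ : ∃ s, s = D.st u v / D.dl u v := ⟨_, rfl⟩
  obtain ⟨w, hw⟩ : ∃ w, w = D.wt u v / D.dl u v := ⟨_, rfl⟩
  have hp' : D.pt u v = D.dl u v * p := by rw [hp]; field_simp
  have hr' : D.rt u v = D.dl u v * r := by rw [hr]; field_simp
  have hs' : D.st u v = D.dl u v * s := by rw [hs]; field_simp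
  have hw' : D.wt u v = D.dl u v * w := by rw [hw]; field_simp
  rw [← hp, ← hr, ← hs, ← hw, hp', hr', hs', hw']
  obtain ⟨δ, hδ'⟩ : ∃ δ, δ = D.dl u v := ⟨_, rfl⟩
  rw [← hδ']
  have h1 := tQd_smul P (C D.l : L[X]) X (C δ) 1 (C D.al * X + C p) (C (-D.be) * X + C r)
    (C w + C s * X + 2 * (C D.al * C p + C D.be * C r) * X + (C D.al ^ 2 - C D.be ^ 2) * X ^ 2)
  rw [tQd_eq] at h1
  rw [C_pow, show ((C s * X + C (w - (p ^ 2 - r ^ 2))) : L[X]) =
    -((C D.al * X + C p) ^ 2 - (C (-D.be) * X + C r) ^ 2) + (C w + C s * X +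
      2 * (C D.al * C p + C D.be * C r) * X + (C D.al ^ 2 - C D.be ^ 2) * X ^ 2) by
        simp only [C_sub, C_neg, C_pow]
        ring, ← h1]
  have k1 : (D.map C).l = (C D.l : L[X]) := rfl
  have k2 : (D.map C).al = (C D.al : L[X]) := rfl
  have k3 : (D.map C).be = (C D.be : L[X]) := rfl
  have k4 : C (δ * p) + C D.al * C δ * X = C δ * (C D.al * X + C p) := by
    rw [C_mul]
    ring
  have k5 : C (δ * r) - C D.be * C δ * X = C δ * (C (-D.be) * X + C r) := by
    rw [C_mul, C_neg]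
    ring
  have k6 : C (δ * w) + C (δ * s) * X + 2 * (C D.al * C (δ * p) + C D.be * C (δ * r)) * X +
      (C D.al ^ 2 - C D.be ^ 2) * C δ * X ^ 2 = C δ * (C w + C s * X +
        2 * (C D.al * C p + C D.be * C r) * X + (C D.al ^ 2 - C D.be ^ 2) * X ^ 2) := by
    simp only [C_mul]
    ring
  rw [k1, k2, k3, k4, k5, k6, mul_one]

/-- the branch quartic on a line through the node -/
theorem tB_poly [CharZero L] (hM : P.M1 = 0) {l al be p r : L} (h : IsNode P l al be) :
    tB P (C l : L[X]) (C al * X + C p) (C (-be) * X + C r) X =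
      C ((ntd P l al be).B2 p r) * X ^ 2 + C ((ntd P l al be).b1 p r / (al * be)) * X +
        C ((ntd P l al be).b0 p r / (al * be) ^ 2) := by
  refine Polynomial.funext fun z => ?_
  rw [eval_tB]
  simp only [eval_add, eval_mul, eval_C, eval_X, eval_pow]
  have ha := h.al0
  have hb := h.be0
  have hab : (al * be) ^ 2 ≠ 0 := pow_ne_zero 2 (mul_ne_zero ha hb)
  apply mul_left_cancel₀ hab
  rw [h.tB_line hM p r z]
  field_simp

theorem B2_line (D : FP L) (hb : D.Base P) (hδ : D.dl u v ≠ 0) :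
    (ntd P D.l D.al D.be).B2 (D.pt u v / D.dl u v) (D.rt u v / D.dl u v) =
      (D.st u v / D.dl u v) ^ 2 := by
  have h1 := D.st_sq u v
  have h2 := hb.hs
  have h3 := hb.ha
  have h4 := hb.hb
  rw [div_pow, eq_div_iff (pow_ne_zero 2 hδ), h1, h2]
  rw [h3, h4]
  have hp : D.pt u v / D.dl u v = D.ps + D.k1 * (D.ht u v / D.dl u v) := by
    unfold FP.pt
    field_simp
  have hr : D.rt u v / D.dl u v = D.rs + D.k2 * (D.ht u v / D.dl u v) := by
    unfold FP.rt
    field_simp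
  rw [hp, hr]
  obtain ⟨x, hx⟩ : ∃ x, x = D.ht u v / D.dl u v := ⟨_, rfl⟩
  have hx' : D.ht u v = x * D.dl u v := by rw [hx]; field_simp
  rw [← hx, hx']
  have e1 : (ntd P D.l D.al D.be).l = D.l := rfl
  have e2 : (ntd P D.l D.al D.be).al = D.al := rfl
  have e3 : (ntd P D.l D.al D.be).be = D.be := rfl
  unfold TD.B2 TD.W
  rw [e1, e2, e3]
  ring

variable [CharZero L]

/-- **The polynomial of the double cover is linear in `Y`.** -/
theorem HP_eq (hM : P.M1 = 0) (hb : D.Base P) (hδ : D.dl u v ≠ 0) :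
    D.HP P u v = C (D.dlt P u v) * X - C (D.nu P u v) := by
  have h1 := HP_aux (P := P) hδ
  rw [tB_poly hM hb.node, B2_line D hb hδ] at h1
  obtain ⟨s, hs⟩ : ∃ s, s = D.st u v / D.dl u v := ⟨_, rfl⟩
  obtain ⟨w, hw⟩ : ∃ w, w = D.wt u v / D.dl u v -
    ((D.pt u v / D.dl u v) ^ 2 - (D.rt u v / D.dl u v) ^ 2) := ⟨_, rfl⟩
  obtain ⟨b1, hb1⟩ : ∃ b1, b1 = (ntd P D.l D.al D.be).b1 (D.pt u v / D.dl u v)
    (D.rt u v / D.dl u v) / (D.al * D.be) := ⟨_, rfl⟩
  obtain ⟨b0, hb0⟩ : ∃ b0, b0 = (ntd P D.l D.al D.be).b0 (D.pt u v / D.dl u v)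
    (D.rt u v / D.dl u v) / (D.al * D.be) ^ 2 := ⟨_, rfl⟩
  rw [← hs, ← hw, ← hb1, ← hb0] at h1
  have h2 : D.HP P u v = C (D.dl u v ^ 3 * (2 * s * w - b1)) * X +
      C (D.dl u v ^ 3 * (w ^ 2 - b0)) := by
    rw [h1]
    simp only [C_mul, C_sub, C_pow, map_ofNat]
    ring
  have h3 : D.dlt P u v = D.dl u v ^ 3 * (2 * s * w - b1) := by
    unfold FP.dlt
    rw [h2]
    simp only [coeff_add, coeff_C_mul, coeff_X_one, mul_one, coeff_C_succ, add_zero]
  have h4 : D.nu P u v = -(D.dl u v ^ 3 * (w ^ 2 - b0)) := by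
    unfold FP.nu
    rw [h2]
    simp only [coeff_add, coeff_C_mul, coeff_X_zero, mul_zero, coeff_C_zero, zero_add]
  rw [h3, h4, h2, C_neg, sub_neg_eq_add]

theorem HP_natDegree (hM : P.M1 = 0) (hb : D.Base P) (hδ : D.dl u v ≠ 0) :
    (D.HP P u v).natDegree ≤ 1 := by
  rw [HP_eq hM hb hδ, sub_eq_add_neg, ← C_neg]
  exact natDegree_linear_le

/-- **The equation of the surface has degree at most nine in `Y`.** -/
theorem GP_natDegree (hM : P.M1 = 0) (hb : D.Base P) (hδ : D.dl u v ≠ 0) :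
    (D.GP P u v).natDegree ≤ 9 := by
  rw [GP_aux hδ]
  refine (natDegree_C_mul_le _ _).trans ?_
  refine (natDegree_add_le _ _).trans (max_le ?_ ?_)
  · have h1 := (H55Z.deg9 P L D.l D.al D.be (D.pt u v / D.dl u v) (D.rt u v / D.dl u v)
      (D.st u v / D.dl u v) (D.wt u v / D.dl u v -
      ((D.pt u v / D.dl u v) ^ 2 - (D.rt u v / D.dl u v) ^ 2)) hb.node).1
    have h2 : (2 : L[X]) = C 2 := (map_ofNat C 2).symm
    rw [h2]
    exact (natDegree_C_mul_le _ _).trans h1
  · have h3 : (((C (D.st u v / D.dl u v) * X + C (D.wt u v / D.dl u v -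
        ((D.pt u v / D.dl u v) ^ 2 - (D.rt u v / D.dl u v) ^ 2))) ^ 2 -
        tB P (C D.l) (C D.al * X + C (D.pt u v / D.dl u v))
        (C (-D.be) * X + C (D.rt u v / D.dl u v)) X : L[X])).natDegree ≤ 2 := by
      rw [tB_poly hM hb.node]
      refine (natDegree_sub_le _ _).trans (max_le ?_ natDegree_quadratic_le)
      refine natDegree_pow_le.trans ?_
      have := natDegree_linear_le (a := D.st u v / D.dl u v) (b := D.wt u v / D.dl u v -
        ((D.pt u v / D.dl u v) ^ 2 - (D.rt u v / D.dl u v) ^ 2))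
      omega
    have hU : (fU P (X : L[X])).natDegree ≤ 1 := by
      unfold fU
      exact (natDegree_add_le _ _).trans (max_le natDegree_X_le (by
        change (C _ : L[X]).natDegree ≤ 1
        rw [natDegree_C]; exact Nat.zero_le _))
    have hV : (fV P (X : L[X])).natDegree ≤ 1 := by
      unfold fV
      exact (natDegree_add_le _ _).trans (max_le natDegree_X_le (by
        change (C _ : L[X]).natDegree ≤ 1
        rw [natDegree_C]; exact Nat.zero_le _))
    have he : (fe P (X : L[X])).natDegree ≤ 2 := by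
      unfold fe
      refine (natDegree_add_le _ _).trans (max_le ((natDegree_sub_le _ _).trans (max_le ?_ ?_)) ?_)
      · change (C _ : L[X]).natDegree ≤ 2
        rw [natDegree_C]; exact Nat.zero_le _
      · exact natDegree_X_pow_le 2
      · change (C _ * X : L[X]).natDegree ≤ 2
        exact (natDegree_C_mul_le _ _).trans (natDegree_X_le.trans (by norm_num))
    have hg : (dat P (X : L[X])).g.natDegree ≤ 4 := by
      change (fU P X * fV P X * fe P X + C _ * fV P X ^ 3 + C _ * fU P X ^ 3 : L[X]).natDegree ≤ 4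
      refine (natDegree_add_le _ _).trans (max_le ((natDegree_add_le _ _).trans (max_le ?_ ?_)) ?_)
      · refine natDegree_mul_le.trans ?_
        have := (natDegree_mul_le (p := fU P (X : L[X])) (q := fV P X))
        omega
      · refine (natDegree_C_mul_le _ _).trans (natDegree_pow_le.trans ?_)
        omega
      · refine (natDegree_C_mul_le _ _).trans (natDegree_pow_le.trans ?_)
        omega
    refine natDegree_mul_le.trans ?_
    have e1 := (natDegree_mul_le (p := (dat P (X : L[X])).g * fU P X) (q := fV P X))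
    have e2 := (natDegree_mul_le (p := (dat P (X : L[X])).g) (q := fU P X))
    omega

end field

end Vale.Agent.P297.H54.Z2
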