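import Vale.Agent.P297.H54.Z2.Base6
import Vale.Agent.P297.H860.Z2.Sgn

/-!
The special member of the family of the two-sections over a chord: the points of the surface on the
line over `y`, counted twice.
-/

set_option linter.unusedSectionVars false
set_option linter.unusedVariables false

open Polynomial

namespace Vale.Agent.P297.H54.Z2

open Vale.Agent.P297 Vale.Agent.P297.Z2 Vale.Agent.P297.Gen Vale.Agent.P297.H72
open Vale.Agent.P297.H160.Z2Irr

section

variable {N : Type} [Field N] [Algebra ℂ N] [CharZero N] {P : Par} {D : FP N}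
  {y p0 p1 r0 r1 s0 s1 s2 z z' zs : N}

/-- **The curve is the line over `y`.** -/
structure OnM (D : FP N) (y p0 p1 r0 r1 s0 s1 s2 zs : N) : Prop where
  p : ∀ u, D.dl u 1 ≠ 0 → D.al * y + D.pb u = p0 + p1 * (zs + D.ht u 1 / D.dl u 1)
  r : ∀ u, D.dl u 1 ≠ 0 → -D.be * y + D.rb u = r0 + r1 * (zs + D.ht u 1 / D.dl u 1)
  s : ∀ u, D.dl u 1 ≠ 0 → D.sb u * y + D.om u =
    s0 + s1 * (zs + D.ht u 1 / D.dl u 1) + s2 * (zs + D.ht u 1 / D.dl u 1) ^ 2

variable (h : OnM D y p0 p1 r0 r1 s0 s1 s2 zs)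

include h

theorem OnM.special (hM : P.M1 = 0) (hb : D.Base P)
    (hY : YLine P D.l y p0 p1 r0 r1 s0 s1 s2) : Special P D y := by
  refine ⟨hM, hb, fun u hu => ?_⟩
  rw [h.p u hu, h.r u hu, h.s u hu, H430.Z2.yline_eval hY]

/-- **The zeros of the equation of the surface on the line over `y`.** -/
theorem OnM.roots [IsAlgClosed N] (hM : P.M1 = 0) (hb : D.Base P)
    (hY : YGood P D.l y p0 p1 r0 r1 s0 s1 s2 z z') (hz : zs ≠ z) (hz' : zs ≠ z')
    (hd : D.a ^ 2 ≠ 4 * D.ss ^ 2 * D.b) :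
    ((D.map C).gY P X 1 (C y)).natDegree = 4 ∧
      (∀ u, ((D.map C).gY P X 1 (C y)).eval u = 0 → D.dl u 1 ≠ 0 ∧
        H55Z.Good P D.l (D.al * y + D.pb u) (-D.be * y + D.rb u) y (D.sb u * y + D.om u)) ∧
      ∀ {K : Type} [Field K] [Algebra ℂ K] (x₀ : Fin 5 → K),
        (((D.map C).gY P X 1 (C y)).roots.map fun u => H160.Z2Irr.pt x₀ (toS P D.l
          (D.al * y + D.pb u) (-D.be * y + D.rb u) y (D.sb u * y + D.om u))).sum =
        (2 : ℤ) • ycyc P x₀ D.l y p0 p1 r0 r1 s0 s1 s2 := by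
  classical
  have H := h.special hM hb hY.line
  obtain ⟨c, hc, hφ⟩ := hY.phi
  obtain ⟨q, hq⟩ : ∃ q : N[X], q = C c * ((X - C (z - zs)) * (X - C (z' - zs))) := ⟨_, rfl⟩
  have hm : (X - C (z - zs)) * (X - C (z' - zs)) ≠ (0 : N[X]) :=
    mul_ne_zero (X_sub_C_ne_zero _) (X_sub_C_ne_zero _)
  have hqd : q.natDegree = 2 := by
    rw [hq, natDegree_C_mul hc, natDegree_mul (X_sub_C_ne_zero _) (X_sub_C_ne_zero _),
      natDegree_X_sub_C, natDegree_X_sub_C]
  have hq0 : q.coeff 0 ≠ 0 := by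
    rw [coeff_zero_eq_eval_zero, hq]
    simp only [eval_mul, eval_sub, eval_C, eval_X, zero_sub]
    exact mul_ne_zero hc (mul_ne_zero (neg_ne_zero.2 (sub_ne_zero.2 hz.symm))
      (neg_ne_zero.2 (sub_ne_zero.2 hz'.symm)))
  have hqr : q.roots = {z - zs} + {z' - zs} := by
    rw [hq, roots_C_mul _ hc, roots_mul hm, roots_X_sub_C, roots_X_sub_C]
  have hev : ∀ x : N, tPhi P D.l (p0 + p1 * x) (r0 + r1 * x) y (s0 + s1 * x + s2 * x ^ 2) =
      c * ((x - z) * (x - z')) := by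
    intro x
    have h1 := congrArg (eval x) hφ
    rw [eval_tPhi] at h1
    simpa only [eval_mul, eval_sub, eval_add, eval_pow, eval_C, eval_X] using h1
  obtain ⟨h1, h2, h3⟩ := gY_roots hqd hq0 H hd (fun u hu => by
    rw [h.p u hu, h.r u hu, h.s u hu, hev, hq]
    simp only [eval_mul, eval_sub, eval_C, eval_X]
    ring)
  refine ⟨h1, fun u hu => ?_, fun {K} _ _ x₀ => ?_⟩
  · obtain ⟨h4, h5⟩ := h2 u hu
    refine ⟨h4, ?_⟩
    rw [h.p u h4, h.r u h4, h.s u h4]
    rw [hq] at h5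
    simp only [eval_mul, eval_sub, eval_C, eval_X] at h5
    rcases mul_eq_zero.1 ((mul_eq_zero.1 h5).resolve_left hc) with h6 | h6
    · have h7 : zs + D.ht u 1 / D.dl u 1 = z := by linear_combination h6
      rw [h7]
      exact hY.good
    · have h7 : zs + D.ht u 1 / D.dl u 1 = z' := by linear_combination h6
      rw [h7]
      exact hY.good'
  · have h4 : (((D.map C).gY P X 1 (C y)).roots.map fun u => H160.Z2Irr.pt x₀ (toS P D.l
          (D.al * y + D.pb u) (-D.be * y + D.rb u) y (D.sb u * y + D.om u))) =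
        ((D.map C).gY P X 1 (C y)).roots.map fun u =>
          (fun x => H160.Z2Irr.pt x₀ (toS P D.l (p0 + p1 * (zs + x)) (r0 + r1 * (zs + x)) y
            (s0 + s1 * (zs + x) + s2 * (zs + x) ^ 2))) (D.ht u 1 / D.dl u 1) := by
      refine Multiset.map_congr rfl fun u hu => ?_
      have h5 := (h2 u (isRoot_of_mem_roots hu)).1
      rw [h.p u h5, h.r u h5, h.s u h5]
    rw [h4]
    refine (h3 (fun x => H160.Z2Irr.pt x₀ (toS P D.l (p0 + p1 * (zs + x)) (r0 + r1 * (zs + x)) y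
      (s0 + s1 * (zs + x) + s2 * (zs + x) ^ 2)))).trans ?_
    rw [hqr, Multiset.map_add, Multiset.sum_add, Multiset.map_singleton,
      Multiset.map_singleton, Multiset.sum_singleton, Multiset.sum_singleton, hY.cyc_eq x₀,
      add_sub_cancel, add_sub_cancel, two_zsmul, two_nsmul]

end

end Vale.Agent.P297.H54.Z2
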