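import Vale.Agent.P297.H54.Z2.Spec6
import Vale.Agent.P297.H430.Z2.Deg6

/-!
The base point of the special member of the family of the two-sections.
-/

set_option linter.unusedSectionVars false
set_option linter.unusedVariables false

open Polynomial

namespace Vale.Agent.P297.H54.Z2

open Vale.Agent.P297 Vale.Agent.P297.Z2 Vale.Agent.P297.Gen Vale.Agent.P297.H72
open Vale.Agent.P297.H160.Z2Irr

section lead

variable {N : Type} [Field N] {n m : ℕ} {a a' : N} {F G : N[X]}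

/-- degree at most `n` and the coefficient of `X ^ n` -/
def Ld (n : ℕ) (a : N) (F : N[X]) : Prop := F.natDegree ≤ n ∧ F.coeff n = a

theorem Ld.add (h : Ld n a F) (h' : Ld n a' G) : Ld n (a + a') (F + G) :=
  ⟨(natDegree_add_le _ _).trans (max_le h.1 h'.1), by rw [coeff_add, h.2, h'.2]⟩

theorem Ld.sub (h : Ld n a F) (h' : Ld n a' G) : Ld n (a - a') (F - G) :=
  ⟨(natDegree_sub_le _ _).trans (max_le h.1 h'.1), by rw [coeff_sub, h.2, h'.2]⟩

theorem Ld.mul (h : Ld n a F) (h' : Ld m a' G) : Ld (n + m) (a * a') (F * G) :=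
  ⟨natDegree_mul_le.trans (add_le_add h.1 h'.1), by
    rw [coeff_mul_add_eq_of_natDegree_le h.1 h'.1, h.2, h'.2]⟩

theorem Ld.cmul (c : N) (h : Ld n a F) : Ld n (c * a) (C c * F) :=
  ⟨(natDegree_C_mul_le _ _).trans h.1, by rw [coeff_C_mul, h.2]⟩

theorem Ld.lift (h : Ld n a F) : Ld (n + 1) 0 F :=
  ⟨h.1.trans (Nat.le_succ _),
    coeff_eq_zero_of_natDegree_lt (lt_of_le_of_lt h.1 (Nat.lt_succ_self _))⟩

theorem ld_lin (a b : N) : Ld 1 a (C a * X + C b) :=
  ⟨natDegree_linear_le, by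
    simp only [coeff_add, coeff_C_mul, coeff_X_one, mul_one, coeff_C_succ, add_zero]⟩

theorem ld_const (c : N) : Ld 0 c (C c) := ⟨by rw [natDegree_C], coeff_C_zero⟩

theorem Ld.congr (h : Ld n a F) (ha : a = a') (hF : F = G) : Ld n a' G := by
  subst ha hF
  exact h

end lead

section disc

variable {N : Type} [Field N] (d : TD N) (p1 r1 pA rA : N)

/-- the first coordinate on the plane -/
noncomputable def pz : N[X] := C p1 * X + C pA

noncomputable def gz2 : N[X] := (C r1 * X + C (rA - d.rn)) * pz p1 pA -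
  C d.A * (C p1 * X + C (pA - d.pn))

noncomputable def gz3 : N[X] := (C p1 * X + C (pA - d.pn)) * pz r1 rA -
  C d.C * (C r1 * X + C (rA - d.rn))

noncomputable def wz : N[X] := C (d.al * d.be) * ((pz p1 pA + pz r1 rA) * (pz p1 pA + pz r1 rA)) +
  C d.kp * pz p1 pA + C d.kr * pz r1 rA + C d.w0

noncomputable def kz : N[X] := wz d p1 r1 pA rA -
  C (d.l * d.e) * ((C p1 * X + C (pA - d.pn)) * (C r1 * X + C (rA - d.rn)))

noncomputable def jz : N[X] := C (d.l * d.be) * gz2 d p1 r1 pA rA -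
  C (d.l * d.al) * gz3 d p1 r1 pA rA + kz d p1 r1 pA rA

noncomputable def bz1 : N[X] :=
  C (2 * d.l) * (((C p1 * X + C (pA - d.pn)) + (C r1 * X + C (rA - d.rn))) * jz d p1 r1 pA rA) -
  C 4 * (kz d p1 r1 pA rA * (C d.al * pz r1 rA - C d.be * pz p1 pA) +
    C (d.l * d.e) * (C d.al * ((C r1 * X + C (rA - d.rn)) * gz3 d p1 r1 pA rA) -
      C d.be * ((C p1 * X + C (pA - d.pn)) * gz2 d p1 r1 pA rA)))

noncomputable def bz0 : N[X] := jz d p1 r1 pA rA * jz d p1 r1 pA rA -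
  C (4 * d.al * d.be) * (kz d p1 r1 pA rA * (pz p1 pA * pz r1 rA - C (d.A * d.C)) +
    C (d.l * d.e) * (gz2 d p1 r1 pA rA * gz3 d p1 r1 pA rA))

noncomputable def bz2 : N[X] :=
  C (d.l ^ 2) * (((C p1 * X + C (pA - d.pn)) + (C r1 * X + C (rA - d.rn))) *
    ((C p1 * X + C (pA - d.pn)) + (C r1 * X + C (rA - d.rn)))) + C 4 * wz d p1 r1 pA rA

noncomputable def Tz : N[X] := bz1 d p1 r1 pA rA * bz1 d p1 r1 pA rA -
  C 4 * (bz2 d p1 r1 pA rA * bz0 d p1 r1 pA rA)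

theorem eval_pz (z : N) : (pz p1 pA).eval z = pA + p1 * z := by
  unfold pz
  rw [eval_add, eval_mul, eval_C, eval_X, eval_C]
  ring

theorem eval_gz2 (z : N) : (gz2 d p1 r1 pA rA).eval z = d.g2 (pA + p1 * z) (rA + r1 * z) := by
  unfold gz2 TD.g2
  simp only [eval_add, eval_sub, eval_mul, eval_C, eval_X, eval_pz]
  ring

theorem eval_gz3 (z : N) : (gz3 d p1 r1 pA rA).eval z = d.g3 (pA + p1 * z) (rA + r1 * z) := by
  unfold gz3 TD.g3
  simp only [eval_add, eval_sub, eval_mul, eval_C, eval_X, eval_pz]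
  ring

theorem eval_wz (z : N) : (wz d p1 r1 pA rA).eval z = d.W (pA + p1 * z) (rA + r1 * z) := by
  unfold wz TD.W
  simp only [eval_add, eval_sub, eval_mul, eval_C, eval_X, eval_pz]
  ring

theorem eval_kz (z : N) : (kz d p1 r1 pA rA).eval z = d.ka (pA + p1 * z) (rA + r1 * z) := by
  unfold kz TD.ka
  simp only [eval_add, eval_sub, eval_mul, eval_C, eval_X, eval_wz]
  ring

theorem eval_jz (z : N) : (jz d p1 r1 pA rA).eval z = d.jn (pA + p1 * z) (rA + r1 * z) := by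
  unfold jz TD.jn
  simp only [eval_add, eval_sub, eval_mul, eval_C, eval_kz, eval_gz2, eval_gz3]

theorem eval_bz1 (z : N) : (bz1 d p1 r1 pA rA).eval z = d.b1 (pA + p1 * z) (rA + r1 * z) := by
  unfold bz1 TD.b1
  simp only [eval_add, eval_sub, eval_mul, eval_C, eval_X, eval_pz, eval_kz, eval_gz2, eval_gz3,
    eval_jz]
  generalize d.jn (pA + p1 * z) (rA + r1 * z) = j
  generalize d.ka (pA + p1 * z) (rA + r1 * z) = k
  generalize d.g2 (pA + p1 * z) (rA + r1 * z) = g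
  generalize d.g3 (pA + p1 * z) (rA + r1 * z) = g'
  ring

theorem eval_bz0 (z : N) : (bz0 d p1 r1 pA rA).eval z = d.b0 (pA + p1 * z) (rA + r1 * z) := by
  unfold bz0 TD.b0
  simp only [eval_add, eval_sub, eval_mul, eval_C, eval_X, eval_pz, eval_kz, eval_gz2, eval_gz3,
    eval_jz]
  generalize d.jn (pA + p1 * z) (rA + r1 * z) = j
  generalize d.ka (pA + p1 * z) (rA + r1 * z) = k
  generalize d.g2 (pA + p1 * z) (rA + r1 * z) = g
  generalize d.g3 (pA + p1 * z) (rA + r1 * z) = g'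
  ring

theorem eval_bz2 (z : N) : (bz2 d p1 r1 pA rA).eval z = d.B2 (pA + p1 * z) (rA + r1 * z) := by
  unfold bz2 TD.B2
  simp only [eval_add, eval_mul, eval_C, eval_X, eval_wz]
  ring

theorem eval_Tz (z : N) : (Tz d p1 r1 pA rA).eval z = d.b1 (pA + p1 * z) (rA + r1 * z) ^ 2 -
    4 * d.B2 (pA + p1 * z) (rA + r1 * z) * d.b0 (pA + p1 * z) (rA + r1 * z) := by
  unfold Tz
  simp only [eval_sub, eval_mul, eval_C, eval_bz1, eval_bz2, eval_bz0]
  ring

variable {d}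

theorem ld_bz2 : Ld 2 ((d.l ^ 2 + 4 * d.al * d.be) * (p1 + r1) ^ 2) (bz2 d p1 r1 pA rA) := by
  have hp : Ld 1 p1 (pz p1 pA) := ld_lin p1 pA
  have hr : Ld 1 r1 (pz r1 rA) := ld_lin r1 rA
  have hx : Ld 1 p1 (C p1 * X + C (pA - d.pn)) := ld_lin _ _
  have hy : Ld 1 r1 (C r1 * X + C (rA - d.rn)) := ld_lin _ _
  have hw : Ld 2 (d.al * d.be * (p1 + r1) ^ 2) (wz d p1 r1 pA rA) :=
    ((((((hp.add hr).mul (hp.add hr)).cmul (d.al * d.be)).add (hp.cmul d.kp).lift).add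
      (hr.cmul d.kr).lift).add (ld_const d.w0).lift.lift).congr (by ring) rfl
  exact ((((hx.add hy).mul (hx.add hy)).cmul (d.l ^ 2)).add (hw.cmul 4)).congr (by ring) rfl

theorem ld_Tz (he : d.e = d.be - d.al) : Ld 6 (4 * (d.al * d.be) ^ 2 * (p1 + r1) ^ 4 *
    (((d.l + 2 * d.be) * p1 + (d.l - 2 * d.al) * r1) ^ 2 -
      (d.l ^ 2 + 4 * d.al * d.be) * (p1 - r1) ^ 2)) (Tz d p1 r1 pA rA) := by
  have hp : Ld 1 p1 (pz p1 pA) := ld_lin p1 pA
  have hr : Ld 1 r1 (pz r1 rA) := ld_lin r1 rA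
  have hx : Ld 1 p1 (C p1 * X + C (pA - d.pn)) := ld_lin _ _
  have hy : Ld 1 r1 (C r1 * X + C (rA - d.rn)) := ld_lin _ _
  have hw : Ld 2 (d.al * d.be * (p1 + r1) ^ 2) (wz d p1 r1 pA rA) :=
    ((((((hp.add hr).mul (hp.add hr)).cmul (d.al * d.be)).add (hp.cmul d.kp).lift).add
      (hr.cmul d.kr).lift).add (ld_const d.w0).lift.lift).congr (by ring) rfl
  have hg2 : Ld 2 (r1 * p1) (gz2 d p1 r1 pA rA) :=
    ((hy.mul hp).sub (hx.cmul d.A).lift).congr (by ring) rfl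
  have hg3 : Ld 2 (p1 * r1) (gz3 d p1 r1 pA rA) :=
    ((hx.mul hr).sub (hy.cmul d.C).lift).congr (by ring) rfl
  have hk : Ld 2 (d.al * d.be * (p1 + r1) ^ 2 - d.l * d.e * (p1 * r1)) (kz d p1 r1 pA rA) :=
    (hw.sub ((hx.mul hy).cmul (d.l * d.e))).congr rfl rfl
  have hj : Ld 2 (d.al * d.be * (p1 + r1) ^ 2) (jz d p1 r1 pA rA) :=
    (((hg2.cmul (d.l * d.be)).sub (hg3.cmul (d.l * d.al))).add hk).congr (by rw [he]; ring) rfl
  have hb1 : Ld 3 (2 * (d.al * d.be) * (p1 + r1) ^ 2 *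
      ((d.l + 2 * d.be) * p1 + (d.l - 2 * d.al) * r1)) (bz1 d p1 r1 pA rA) :=
    ((((hx.add hy).mul hj).cmul (2 * d.l)).sub
      (((hk.mul ((hr.cmul d.al).sub (hp.cmul d.be))).add
        ((((hy.mul hg3).cmul d.al).sub ((hx.mul hg2).cmul d.be)).cmul (d.l * d.e))).cmul 4)).congr
      (by rw [he]; ring) rfl
  have hb0 : Ld 4 ((d.al * d.be) ^ 2 * ((p1 + r1) ^ 2 * (p1 - r1) ^ 2)) (bz0 d p1 r1 pA rA) :=
    ((hj.mul hj).sub (((hk.mul ((hp.mul hr).sub (ld_const (d.A * d.C)).lift.lift)).add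
      ((hg2.mul hg3).cmul (d.l * d.e))).cmul (4 * d.al * d.be))).congr (by rw [he]; ring) rfl
  have hb2 := ld_bz2 (d := d) p1 r1 pA rA
  exact ((hb1.mul hb1).sub ((hb2.mul hb0).cmul 4)).congr (by ring) rfl

end disc

section base

variable {N : Type} [Field N] [Algebra ℂ N] [CharZero N] {P : Par} {D : FP N} {y0 : N}

theorem eval_nu' (v : N) : ((D.map C).nu P 1 X).eval v = D.nu P 1 v := by
  have h := FP.map_nu P (D.map C) ((Polynomial.aeval v : N[X] →ₐ[N] N).restrictScalars ℂ) 1 X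
  rw [map_C_aeval] at h
  simpa only [AlgHom.restrictScalars_apply, coe_aeval_eq_eval, eval_X, eval_one] using h

theorem nu_deg : ((D.map C).nu P X 1).coeff 6 = D.nu P 1 0 := by
  have h := hom_deg (F := (D.map C).nu P X 1) (Q := (D.map C).nu P 1 X) (d := 6) (by
    intro u hu
    rw [eval_nu, eval_nu']
    have h1 := FP.nu_smul P D u 1 u⁻¹
    rw [mul_one, mul_inv_cancel₀ hu] at h1
    exact h1)
  rw [h.2, coeff_zero_eq_eval_zero, eval_nu']

theorem nu_one_zero (H : Special P D y0) : D.nu P 1 0 = y0 * D.dlt P 1 0 := by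
  rw [← nu_deg, ← dlt_deg.2, H.nu_poly, coeff_C_mul]

theorem nline_one (H : Special P D y0) (h0 : D.dlt P 1 0 = 0) :
    ∃ s s', NLine P D.l D.al D.be D.ps D.rs s s' := by
  have hnu := nu_one_zero H
  rw [h0, mul_zero] at hnu
  have e1 : D.dl 1 0 = 1 := by
    unfold FP.dl
    ring
  have e2 : D.ht 1 0 = 0 := by
    unfold FP.ht
    ring
  have e3 : D.pt 1 0 / D.dl 1 0 = D.ps := by
    unfold FP.pt
    rw [e1, e2, mul_one, mul_zero, add_zero, div_one]
  have e4 : D.rt 1 0 / D.dl 1 0 = D.rs := by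
    unfold FP.rt
    rw [e1, e2, mul_one, mul_zero, add_zero, div_one]
  have hδ : D.dl 1 0 ≠ 0 := by
    rw [e1]
    exact one_ne_zero
  have h1 := HP_aux (P := P) hδ
  rw [HP_eq H.M H.base hδ, h0, hnu, C_0, zero_mul, sub_zero, e3, e4] at h1
  have h2 : (C (D.dl 1 0 ^ 3) : N[X]) ≠ 0 := C_ne_zero.2 (pow_ne_zero 3 hδ)
  have h3 := (mul_eq_zero.1 h1.symm).resolve_left h2
  exact ⟨_, _, H.base.node, (sub_eq_zero.1 h3).symm⟩

/-- **The leading coefficient of `Δ`** at the special member is not zero, if the line through the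
node over the base point is not a tangent. -/
theorem dlt_one_zero (H : Special P D y0)
    (hT : (ntd P D.l D.al D.be).b1 D.ps D.rs ^ 2 ≠
      4 * (ntd P D.l D.al D.be).B2 D.ps D.rs * (ntd P D.l D.al D.be).b0 D.ps D.rs) :
    D.dlt P 1 0 ≠ 0 := by
  intro h0
  obtain ⟨s, s', h2⟩ := nline_one H h0
  exact hT (NLine.disc H.M h2)

/-- **The base point.** -/
theorem exists_base {l al be y p0 p1 r0 r1 : N} (hn : IsNode P l al be)
    (hk : p1 + r1 ≠ 0) (h6 : H430.Z2.dg6 l al be p1 r1 ≠ 0) (hb : l ^ 2 + 4 * al * be ≠ 0)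
    (S : Finset N) : ∃ z, z ∉ S ∧
      (ntd P l al be).B2 (p0 - al * y + p1 * z) (r0 + be * y + r1 * z) ≠ 0 ∧
      (ntd P l al be).b1 (p0 - al * y + p1 * z) (r0 + be * y + r1 * z) ^ 2 ≠
        4 * (ntd P l al be).B2 (p0 - al * y + p1 * z) (r0 + be * y + r1 * z) *
          (ntd P l al be).b0 (p0 - al * y + p1 * z) (r0 + be * y + r1 * z) := by
  classical
  set d := ntd P l al be with hd
  have hl : d.l = l := rfl
  have hal : d.al = al := rfl
  have hbe : d.be = be := rfl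
  have he : d.e = d.be - d.al := rfl
  have h1 := ld_Tz (d := d) p1 r1 (p0 - al * y) (r0 + be * y) he
  have h2 := ld_bz2 (d := d) p1 r1 (p0 - al * y) (r0 + be * y)
  rw [hl, hal, hbe] at h1 h2
  have h3 : ((l + 2 * be) * p1 + (l - 2 * al) * r1) ^ 2 - (l ^ 2 + 4 * al * be) * (p1 - r1) ^ 2 =
      H430.Z2.dg6 l al be p1 r1 := by
    rw [← H430.Z2.dg6_eq hn.sub]
    have h4 : l = 1 - be + al := by linear_combination hn.sub
    rw [h4]
    ring
  rw [h3] at h1
  have hT : Tz d p1 r1 (p0 - al * y) (r0 + be * y) ≠ 0 := by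
    intro h0
    have h5 := h1.2
    rw [h0, coeff_zero] at h5
    exact mul_ne_zero (mul_ne_zero (mul_ne_zero (by norm_num)
      (pow_ne_zero 2 (mul_ne_zero hn.al0 hn.be0))) (pow_ne_zero 4 hk)) h6 h5.symm
  have hB : bz2 d p1 r1 (p0 - al * y) (r0 + be * y) ≠ 0 := by
    intro h0
    have h5 := h2.2
    rw [h0, coeff_zero] at h5
    exact mul_ne_zero hb (pow_ne_zero 2 hk) h5.symm
  obtain ⟨z, hz⟩ := Infinite.exists_notMem_finset
    (S ∪ ((Tz d p1 r1 (p0 - al * y) (r0 + be * y)).roots.toFinset ∪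
      (bz2 d p1 r1 (p0 - al * y) (r0 + be * y)).roots.toFinset))
  rw [Finset.mem_union, Finset.mem_union, not_or, not_or, Multiset.mem_toFinset,
    Multiset.mem_toFinset, mem_roots hT, mem_roots hB, IsRoot.def, IsRoot.def, eval_Tz,
    eval_bz2] at hz
  exact ⟨z, hz.1, hz.2.2, fun h0 => hz.2.1 (sub_eq_zero.2 h0)⟩

end base

end Vale.Agent.P297.H54.Z2
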