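import Mathlib

/-!
The zeros of a polynomial of degree two on a conic.
-/

set_option linter.unusedSectionVars false
set_option linter.unusedVariables false

open Polynomial

namespace Vale.Agent.P297.H54.Z2

section

variable {N : Type} [Field N] {a b ss : N}

theorem line_eq (h : N) : (C a - C (2 * ss) * X) - C h * (X ^ 2 - C b) =
    (C (-h) * X ^ 2 + C (-(2 * ss)) * X + C (a + h * b) : N[X]) := by
  simp only [C_neg, C_add, C_mul]
  ring

theorem line_natDegree {h : N} (hh : h ≠ 0) :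
    ((C a - C (2 * ss) * X) - C h * (X ^ 2 - C b) : N[X]).natDegree = 2 := by
  rw [line_eq]
  exact natDegree_quadratic (neg_ne_zero.2 hh)

theorem line_ne {h : N} (hh : h ≠ 0) :
    ((C a - C (2 * ss) * X) - C h * (X ^ 2 - C b) : N[X]) ≠ 0 := by
  intro h0
  have h1 := line_natDegree (a := a) (b := b) (ss := ss) hh
  rw [h0, natDegree_zero] at h1
  omega

theorem dl_ne (hd : a ^ 2 ≠ 4 * ss ^ 2 * b) {h u : N}
    (h0 : ((C a - C (2 * ss) * X) - C h * (X ^ 2 - C b) : N[X]).eval u = 0) : u ^ 2 - b ≠ 0 := by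
  intro h1
  rw [eval_sub, eval_sub, eval_mul, eval_mul, eval_sub, eval_pow, eval_X, eval_C, eval_C, eval_C,
    eval_C, h1, mul_zero, sub_zero] at h0
  apply hd
  linear_combination (a + 2 * ss * u) * h0 + 4 * ss ^ 2 * h1

theorem line_val (hd : a ^ 2 ≠ 4 * ss ^ 2 * b) {h u : N}
    (h0 : ((C a - C (2 * ss) * X) - C h * (X ^ 2 - C b) : N[X]).eval u = 0) :
    (a - 2 * ss * u) / (u ^ 2 - b) = h := by
  have h1 := dl_ne hd h0
  rw [eval_sub, eval_sub, eval_mul, eval_mul, eval_sub, eval_pow, eval_X, eval_C, eval_C, eval_C,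
    eval_C] at h0
  rw [div_eq_iff h1]
  linear_combination h0

theorem line_roots [IsAlgClosed N] (hd : a ^ 2 ≠ 4 * ss ^ 2 * b) {h : N} (hh : h ≠ 0) {M : Type*}
    [AddCommMonoid M] (f : N → M) :
    (((C a - C (2 * ss) * X) - C h * (X ^ 2 - C b) : N[X]).roots.map
      fun u => f ((a - 2 * ss * u) / (u ^ 2 - b))).sum = 2 • f h := by
  have h1 : (((C a - C (2 * ss) * X) - C h * (X ^ 2 - C b) : N[X]).roots.map
      fun u => f ((a - 2 * ss * u) / (u ^ 2 - b))) =
      ((C a - C (2 * ss) * X) - C h * (X ^ 2 - C b) : N[X]).roots.map fun _ => f h := by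
    refine Multiset.map_congr rfl fun u hu => ?_
    rw [line_val hd ((mem_roots (line_ne hh)).1 hu)]
  rw [h1, Multiset.map_const', Multiset.sum_replicate, IsAlgClosed.card_roots_eq_natDegree,
    line_natDegree hh]

/-- **The zeros on the conic of a quadratic polynomial.** -/
theorem conic_roots [IsAlgClosed N] {q : N[X]} (hq : q.natDegree = 2) (h0 : q.coeff 0 ≠ 0)
    (hd : a ^ 2 ≠ 4 * ss ^ 2 * b) :
    (C (q.coeff 2) * (C a - C (2 * ss) * X) ^ 2 +
        C (q.coeff 1) * (C a - C (2 * ss) * X) * (X ^ 2 - C b) +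
        C (q.coeff 0) * (X ^ 2 - C b) ^ 2 : N[X]).natDegree = 4 ∧
      (∀ u, (C (q.coeff 2) * (C a - C (2 * ss) * X) ^ 2 +
        C (q.coeff 1) * (C a - C (2 * ss) * X) * (X ^ 2 - C b) +
        C (q.coeff 0) * (X ^ 2 - C b) ^ 2 : N[X]).eval u = 0 →
        u ^ 2 - b ≠ 0 ∧ q.eval ((a - 2 * ss * u) / (u ^ 2 - b)) = 0) ∧
      ∀ {M : Type} [AddCommMonoid M] (f : N → M),
        ((C (q.coeff 2) * (C a - C (2 * ss) * X) ^ 2 +
          C (q.coeff 1) * (C a - C (2 * ss) * X) * (X ^ 2 - C b) +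
          C (q.coeff 0) * (X ^ 2 - C b) ^ 2 : N[X]).roots.map
            fun u => f ((a - 2 * ss * u) / (u ^ 2 - b))).sum = 2 • (q.roots.map f).sum := by
  classical
  have hq0 : q ≠ 0 := by
    intro h
    rw [h, natDegree_zero] at hq
    omega
  have hc : q.roots.card = 2 := by rw [IsAlgClosed.card_roots_eq_natDegree, hq]
  obtain ⟨h₁, h₂, hr⟩ := Multiset.card_eq_two.1 hc
  have hl : q.leadingCoeff = q.coeff 2 := by rw [leadingCoeff, hq]
  have hs := (IsAlgClosed.splits q).eq_prod_roots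
  rw [hr, hl] at hs
  simp only [Multiset.insert_eq_cons, Multiset.map_cons, Multiset.map_singleton,
    Multiset.prod_cons, Multiset.prod_singleton] at hs
  set c := q.coeff 2 with hcdef
  have hc0 : c ≠ 0 := by
    rw [← hl]
    exact leadingCoeff_ne_zero.2 hq0
  have hs' : q = C c * X ^ 2 + C (-(c * (h₁ + h₂))) * X + C (c * (h₁ * h₂)) := by
    rw [hs]
    simp only [C_neg, C_add, C_mul]
    ring
  have e1 : q.coeff 1 = -(c * (h₁ + h₂)) := by
    rw [hs']
    simp [coeff_X, coeff_C]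
  have e0 : q.coeff 0 = c * (h₁ * h₂) := by
    rw [hs']
    simp [coeff_X, coeff_C]
  have hh₁ : h₁ ≠ 0 := by
    rintro rfl
    apply h0
    rw [e0]
    ring
  have hh₂ : h₂ ≠ 0 := by
    rintro rfl
    apply h0
    rw [e0]
    ring
  have hG : (C c * (C a - C (2 * ss) * X) ^ 2 +
        C (q.coeff 1) * (C a - C (2 * ss) * X) * (X ^ 2 - C b) +
        C (q.coeff 0) * (X ^ 2 - C b) ^ 2 : N[X]) =
      C c * (((C a - C (2 * ss) * X) - C h₁ * (X ^ 2 - C b)) *
        ((C a - C (2 * ss) * X) - C h₂ * (X ^ 2 - C b))) := by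
    rw [e1, e0]
    simp only [C_neg, C_add, C_mul]
    ring
  have hmul : ((C a - C (2 * ss) * X) - C h₁ * (X ^ 2 - C b)) *
        ((C a - C (2 * ss) * X) - C h₂ * (X ^ 2 - C b)) ≠ (0 : N[X]) :=
    mul_ne_zero (line_ne hh₁) (line_ne hh₂)
  refine ⟨?_, fun u hu => ?_, fun {M} _ f => ?_⟩
  · rw [hG, natDegree_C_mul hc0, natDegree_mul (line_ne hh₁) (line_ne hh₂), line_natDegree hh₁,
      line_natDegree hh₂]
  · rw [hG, eval_mul, eval_C, eval_mul] at hu
    have h3 : ∀ h : N, ((C a - C (2 * ss) * X) - C h * (X ^ 2 - C b) : N[X]).eval u = 0 →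
        (X - C h) ∣ q →
        u ^ 2 - b ≠ 0 ∧ q.eval ((a - 2 * ss * u) / (u ^ 2 - b)) = 0 := by
      intro h h4 h5
      refine ⟨dl_ne hd h4, ?_⟩
      rw [line_val hd h4]
      exact dvd_iff_isRoot.1 h5
    rcases mul_eq_zero.1 ((mul_eq_zero.1 hu).resolve_left hc0) with h4 | h4
    · exact h3 h₁ h4 ⟨C c * (X - C h₂), by rw [hs]; ring⟩
    · exact h3 h₂ h4 ⟨C c * (X - C h₁), by rw [hs]; ring⟩
  · rw [hG, roots_C_mul _ hc0, roots_mul hmul, Multiset.map_add, Multiset.sum_add,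
      line_roots hd hh₁, line_roots hd hh₂, hr]
    simp only [Multiset.insert_eq_cons, Multiset.map_cons, Multiset.map_singleton,
      Multiset.sum_cons, Multiset.sum_singleton, smul_add]

end

end Vale.Agent.P297.H54.Z2
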