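import Vale.Agent.P297.H54.Z2.FDeg
import Vale.Agent.P297.H54.Z2.Conic
import Vale.Agent.P297.H10.Z2.FamMap

/-!
The special member of the family of the two-sections: the curve is a line over `y0`, run through
twice, and six lines through the node.
-/

set_option linter.unusedSectionVars false
set_option linter.unusedVariables false

open Polynomial

namespace Vale.Agent.P297.H54.Z2

open Vale.Agent.P297 Vale.Agent.P297.Z2 Vale.Agent.P297.Gen Vale.Agent.P297.H72
open Vale.Agent.P297.H160.Z2Irr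

section gen

variable {N : Type} [Field N]

/-- The degree of a homogeneous polynomial. -/
theorem hom_deg [Infinite N] {F Q : N[X]} {d : ℕ} (h : ∀ u, u ≠ 0 → F.eval u = u ^ d * Q.eval u⁻¹) :
    F.natDegree ≤ d ∧ F.coeff d = Q.coeff 0 := by
  have h1 : ∀ u : N, u ≠ 0 → (X ^ Q.natDegree * F).eval u = (X ^ d * Q.reverse).eval u := by
    intro u hu
    let _ : Invertible (u⁻¹) := invertibleOfNonzero (inv_ne_zero hu)
    have h2 := eval₂_reverse_mul_pow (RingHom.id N) (u⁻¹) Q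
    have h3 : ⅟(u⁻¹) = u := by
      rw [invOf_eq_inv, inv_inv]
    rw [h3, eval₂_id, eval₂_id, inv_pow] at h2
    rw [eval_mul, eval_mul, eval_pow, eval_pow, eval_X, h u hu, ← h2]
    have h4 : u ^ Q.natDegree ≠ 0 := pow_ne_zero _ hu
    field_simp
  have h2 : X ^ Q.natDegree * F = X ^ d * Q.reverse := by
    have h3 : X * (X ^ Q.natDegree * F - X ^ d * Q.reverse) = 0 := by
      refine Polynomial.funext fun u => ?_
      rw [eval_mul, eval_X, eval_sub, eval_zero]
      by_cases hu : u = 0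
      · rw [hu, zero_mul]
      · rw [h1 u hu, sub_self, mul_zero]
    exact sub_eq_zero.1 ((mul_eq_zero.1 h3).resolve_left X_ne_zero)
  constructor
  · by_cases hF : F = 0
    · rw [hF, natDegree_zero]
      exact Nat.zero_le _
    · have h3 := congrArg natDegree h2
      rw [natDegree_mul (pow_ne_zero _ X_ne_zero) hF, natDegree_X_pow] at h3
      have h4 : (X ^ d * Q.reverse).natDegree ≤ d + Q.natDegree :=
        natDegree_mul_le.trans (by
          rw [natDegree_X_pow]
          exact Nat.add_le_add_left (reverse_natDegree_le Q) d)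
      omega
  · have h3 : (X ^ Q.natDegree * F).coeff (Q.natDegree + d) =
        (X ^ d * Q.reverse).coeff (Q.natDegree + d) := by rw [h2]
    rw [add_comm Q.natDegree d, coeff_X_pow_mul, add_comm d Q.natDegree, coeff_X_pow_mul',
      if_pos (Nat.le_add_left _ _), Nat.add_sub_cancel] at h3
    rw [h3, coeff_reverse, revAt_le le_rfl, Nat.sub_self]

/-- enumeration of the roots -/
theorem exists_enum [IsAlgClosed N] {F : N[X]} {n : ℕ} (hF : F.natDegree = n) (h0 : F ≠ 0) :
    ∃ β : Fin n → N, F = C F.leadingCoeff * ∏ j, (X - C (β j)) := by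
  have hc : F.roots.card = n := by rw [IsAlgClosed.card_roots_eq_natDegree, hF]
  obtain ⟨l, hl⟩ := Quot.exists_rep F.roots
  have hlen : l.length = n := by
    rw [← hc, ← hl]
    rfl
  subst hlen
  refine ⟨fun j => l.get j, ?_⟩
  have hs := (IsAlgClosed.splits F).eq_prod_roots
  conv_lhs => rw [hs, ← hl]
  congr 1
  change ((l : Multiset N).map fun a => X - C a).prod = _
  rw [Multiset.map_coe, Multiset.prod_coe, ← List.prod_ofFn]
  congr 1
  apply List.ext_get
  · simp
  · intro i h1 h2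
    simp

end gen

section eval

variable {N : Type} [Field N] [Algebra ℂ N] {P : Par} {D : FP N}

theorem map_C_aeval (u : N) :
    (D.map C).map ((Polynomial.aeval u : N[X] →ₐ[N] N).restrictScalars ℂ) = D := by
  simp only [FP.map, AlgHom.restrictScalars_apply, aeval_C, Algebra.algebraMap_self,
    RingHom.id_apply]

theorem eval_dlt (u : N) : ((D.map C).dlt P X 1).eval u = D.dlt P u 1 := by
  have h := FP.map_dlt P (D.map C) ((Polynomial.aeval u : N[X] →ₐ[N] N).restrictScalars ℂ) X 1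
  rw [map_C_aeval] at h
  simpa only [AlgHom.restrictScalars_apply, coe_aeval_eq_eval, eval_X, eval_one] using h

theorem eval_dlt' (v : N) : ((D.map C).dlt P 1 X).eval v = D.dlt P 1 v := by
  have h := FP.map_dlt P (D.map C) ((Polynomial.aeval v : N[X] →ₐ[N] N).restrictScalars ℂ) 1 X
  rw [map_C_aeval] at h
  simpa only [AlgHom.restrictScalars_apply, coe_aeval_eq_eval, eval_X, eval_one] using h

theorem eval_nu (u : N) : ((D.map C).nu P X 1).eval u = D.nu P u 1 := by
  have h := FP.map_nu P (D.map C) ((Polynomial.aeval u : N[X] →ₐ[N] N).restrictScalars ℂ) X 1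
  rw [map_C_aeval] at h
  simpa only [AlgHom.restrictScalars_apply, coe_aeval_eq_eval, eval_X, eval_one] using h

theorem eval_gY (u y0 : N) : ((D.map C).gY P X 1 (C y0)).eval u = D.gY P u 1 y0 := by
  have h := FP.map_gY P (D.map C) ((Polynomial.aeval u : N[X] →ₐ[N] N).restrictScalars ℂ) X 1 (C y0)
  rw [map_C_aeval] at h
  simpa only [AlgHom.restrictScalars_apply, coe_aeval_eq_eval, eval_X, eval_one, eval_C] using h

theorem dl_eq (u : N) : D.dl u 1 = u ^ 2 - D.b := by
  unfold FP.dl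
  ring

theorem ht_eq (u : N) : D.ht u 1 = D.a - 2 * D.ss * u := by
  unfold FP.ht
  ring

/-- Polynomials in `u` which agree where `δ ≠ 0`. -/
theorem ext_dl [Infinite N] {F G : N[X]} (h : ∀ u, D.dl u 1 ≠ 0 → F.eval u = G.eval u) : F = G := by
  have h3 : (X ^ 2 - C D.b) * (F - G) = 0 := by
    refine Polynomial.funext fun u => ?_
    rw [eval_mul, eval_sub, eval_pow, eval_X, eval_C, eval_sub, eval_zero, ← dl_eq]
    by_cases hu : D.dl u 1 = 0
    · rw [hu, zero_mul]
    · rw [h u hu, sub_self, mul_zero]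
  have h4 : (X ^ 2 - C D.b : N[X]) ≠ 0 := (monic_X_pow_sub_C D.b two_ne_zero).ne_zero
  exact sub_eq_zero.1 ((mul_eq_zero.1 h3).resolve_left h4)

/-- **The degree and the leading coefficient of `Δ`.** -/
theorem dlt_deg [Infinite N] : ((D.map C).dlt P X 1).natDegree ≤ 6 ∧
    ((D.map C).dlt P X 1).coeff 6 = D.dlt P 1 0 := by
  have h := hom_deg (F := (D.map C).dlt P X 1) (Q := (D.map C).dlt P 1 X) (d := 6) (by
    intro u hu
    rw [eval_dlt, eval_dlt']
    have h1 := FP.dlt_smul P D u 1 u⁻¹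
    rw [mul_one, mul_inv_cancel₀ hu] at h1
    exact h1)
  refine ⟨h.1, ?_⟩
  rw [h.2, coeff_zero_eq_eval_zero, eval_dlt']

end eval

section special

variable {N : Type} [Field N] [Algebra ℂ N] [CharZero N] {P : Par} {D : FP N} {y0 : N}

/-- **The curve is a line over `y0`.** -/
structure Special (P : Par) (D : FP N) (y0 : N) : Prop where
  M : P.M1 = 0
  base : D.Base P
  B : ∀ u, D.dl u 1 ≠ 0 → (D.sb u * y0 + D.om u) ^ 2 =
    tB P D.l (D.al * y0 + D.pb u) (-D.be * y0 + D.rb u) y0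

variable (H : Special P D y0)

include H

theorem Special.nu_eq {u : N} (hδ : D.dl u 1 ≠ 0) : D.nu P u 1 = y0 * D.dlt P u 1 := by
  have h1 := FP.hY_eq (P := P) hδ y0
  rw [H.B u hδ, sub_self, mul_zero, ← FP.eval_HP, HP_eq H.M H.base hδ] at h1
  rw [eval_sub, eval_mul, eval_C, eval_X, eval_C] at h1
  linear_combination -h1

theorem Special.nu_poly : (D.map C).nu P X 1 = C y0 * (D.map C).dlt P X 1 := by
  refine ext_dl (D := D) fun u hu => ?_
  rw [eval_nu, eval_mul, eval_C, eval_dlt, H.nu_eq hu]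

theorem Special.FE_eq {u : N} (hδ : D.dl u 1 ≠ 0) :
    D.FE P u 1 = D.gY P u 1 y0 * D.dlt P u 1 ^ 9 := by
  unfold FP.FE FP.FF
  by_cases h0 : D.dlt P u 1 = 0
  · rw [H.nu_eq hδ, h0, mul_zero, zero_pow (by norm_num), mul_zero]
    refine Finset.sum_eq_zero fun j hj => ?_
    have h1 : j < 10 := Finset.mem_range.1 hj
    rcases Nat.eq_zero_or_pos j with h2 | h2
    · rw [h2, Nat.sub_zero, zero_pow (by norm_num : (9 : ℕ) ≠ 0), mul_zero]
    · rw [zero_pow (by omega), mul_zero, zero_mul]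
  · rw [FP.FF_eq (GP_natDegree H.M H.base hδ) _ _ h0, H.nu_eq hδ, mul_div_cancel_right₀ _ h0,
      FP.eval_GP]
    ring

/-- **The equation of the surface on the special member.** -/
theorem Special.poly_eq : D.poly P = (D.map C).gY P X 1 (C y0) * ((D.map C).dlt P X 1) ^ 9 := by
  refine ext_dl (D := D) fun u hu => ?_
  rw [FP.eval_poly, eval_mul, eval_pow, eval_gY, eval_dlt, H.FE_eq hu]

/-- **The lines through the node over the zeros of `Δ`.** -/
theorem Special.nline {u : N} (hδ : D.dl u 1 ≠ 0) (h0 : D.dlt P u 1 = 0) :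
    NLine P D.l D.al D.be (D.pb u) (D.rb u) (D.sb u) (D.om u) := by
  refine ⟨H.base.node, ?_⟩
  have h1 := HP_aux (P := P) hδ
  rw [HP_eq H.M H.base hδ, H.nu_eq hδ, h0, mul_zero, C_0, zero_mul, sub_zero] at h1
  have h2 : (C (D.dl u 1 ^ 3) : N[X]) ≠ 0 := C_ne_zero.2 (pow_ne_zero 3 hδ)
  have h3 := (mul_eq_zero.1 h1.symm).resolve_left h2
  exact (sub_eq_zero.1 h3).symm

theorem Special.GP_eq {u : N} (hδ : D.dl u 1 ≠ 0) (h0 : D.dlt P u 1 = 0) :
    D.GP P u 1 = C (2 * D.dl u 1 ^ 2) * tPhi P (C D.l) (C D.al * X + C (D.pb u))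
      (C (-D.be) * X + C (D.rb u)) X (C (D.sb u) * X + C (D.om u)) := by
  have h1 := GP_aux (P := P) hδ
  have h2 := (H.nline hδ h0).eq
  have h3 : (C (D.st u 1 / D.dl u 1) * X + C (D.wt u 1 / D.dl u 1 -
      ((D.pt u 1 / D.dl u 1) ^ 2 - (D.rt u 1 / D.dl u 1) ^ 2)) : N[X]) ^ 2 -
      tB P (C D.l) (C D.al * X + C (D.pt u 1 / D.dl u 1))
        (C (-D.be) * X + C (D.rt u 1 / D.dl u 1)) X = 0 := sub_eq_zero.2 h2.symm
  rw [h3, mul_zero, add_zero] at h1
  rw [h1, C_mul, map_ofNat]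
  unfold FP.pb FP.rb FP.sb FP.om FP.pb FP.rb
  ring

/-- **The form on the line over a zero of `Δ`** (hypothesis `hQ` of the degeneration lemma). -/
theorem Special.FF_line {u : N} (hδ : D.dl u 1 ≠ 0) (h0 : D.dlt P u 1 = 0) {x z : N} (hx : x ≠ 0) :
    D.FF P u 1 x z = x ^ 9 * (2 * D.dl u 1 ^ 2 * (tPhi P (C D.l) (C D.al * X + C (D.pb u))
      (C (-D.be) * X + C (D.rb u)) X (C (D.sb u) * X + C (D.om u))).eval (z / x)) := by
  unfold FP.FF
  rw [FP.FF_eq (GP_natDegree H.M H.base hδ) _ _ hx, H.GP_eq hδ h0, eval_mul, eval_C]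

/-- **The zeros of `Δ`.** -/
theorem Special.exists_beta [IsAlgClosed N] (h0 : D.dlt P 1 0 ≠ 0)
    (hN : ∀ u, D.dl u 1 = 0 → D.dlt P u 1 ≠ 0) :
    ∃ β : Fin 6 → N, (D.map C).dlt P X 1 = C (D.dlt P 1 0) * ∏ j, (X - C (β j)) ∧
      ∀ j, D.dlt P (β j) 1 = 0 ∧ D.dl (β j) 1 ≠ 0 := by
  obtain ⟨h1, h2⟩ := dlt_deg (P := P) (D := D)
  have hd : ((D.map C).dlt P X 1).natDegree = 6 :=
    le_antisymm h1 (le_natDegree_of_ne_zero (by rw [h2]; exact h0))
  have hne : (D.map C).dlt P X 1 ≠ 0 := by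
    intro h3
    rw [h3, natDegree_zero] at hd
    omega
  obtain ⟨β, hβ⟩ := exists_enum hd hne
  have hl : ((D.map C).dlt P X 1).leadingCoeff = D.dlt P 1 0 := by rw [leadingCoeff, hd, h2]
  rw [hl] at hβ
  refine ⟨β, hβ, fun j => ?_⟩
  have h3 : D.dlt P (β j) 1 = 0 := by
    rw [← eval_dlt, hβ, eval_mul, eval_prod]
    rw [Finset.prod_eq_zero (Finset.mem_univ j) (by rw [eval_sub, eval_X, eval_C, sub_self]),
      mul_zero]
  exact ⟨h3, fun h4 => hN _ h4 h3⟩

omit H in
/-- **The equation of the surface on the line over `y0`, on the conic.** -/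
theorem gY_conic {q : N[X]} (hq : q.natDegree ≤ 2) (H : Special P D y0)
    (hφ : ∀ u, D.dl u 1 ≠ 0 → tPhi P D.l (D.al * y0 + D.pb u) (-D.be * y0 + D.rb u) y0
      (D.sb u * y0 + D.om u) = q.eval (D.ht u 1 / D.dl u 1)) :
    (D.map C).gY P X 1 (C y0) = C 2 * (C (q.coeff 2) * (C D.a - C (2 * D.ss) * X) ^ 2 +
        C (q.coeff 1) * (C D.a - C (2 * D.ss) * X) * (X ^ 2 - C D.b) +
        C (q.coeff 0) * (X ^ 2 - C D.b) ^ 2) := by
  refine ext_dl (D := D) fun u hu => ?_
  rw [eval_gY, FP.gY_eq hu, H.B u hu, sub_self, mul_zero, add_zero, hφ u hu,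
    eval_eq_sum_range' (n := 3) (by omega)]
  simp only [Finset.sum_range_succ, Finset.sum_range_zero, eval_add, eval_sub, eval_mul, eval_pow,
    eval_C, eval_X]
  rw [← dl_eq, ← ht_eq]
  field_simp
  ring

omit H in
/-- **The zeros on the line over `y0`**: the degree is four and every zero on the line is counted
twice. -/
theorem gY_roots [IsAlgClosed N] {q : N[X]} (hq : q.natDegree = 2) (h0 : q.coeff 0 ≠ 0)
    (H : Special P D y0) (hd : D.a ^ 2 ≠ 4 * D.ss ^ 2 * D.b)
    (hφ : ∀ u, D.dl u 1 ≠ 0 → tPhi P D.l (D.al * y0 + D.pb u) (-D.be * y0 + D.rb u) y0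
      (D.sb u * y0 + D.om u) = q.eval (D.ht u 1 / D.dl u 1)) :
    ((D.map C).gY P X 1 (C y0)).natDegree = 4 ∧
      (∀ u, ((D.map C).gY P X 1 (C y0)).eval u = 0 →
        D.dl u 1 ≠ 0 ∧ q.eval (D.ht u 1 / D.dl u 1) = 0) ∧
      ∀ {M : Type} [AddCommMonoid M] (f : N → M),
        (((D.map C).gY P X 1 (C y0)).roots.map fun u => f (D.ht u 1 / D.dl u 1)).sum =
          2 • (q.roots.map f).sum := by
  obtain ⟨h1, h2, h3⟩ := conic_roots (a := D.a) (b := D.b) (ss := D.ss) hq h0 hd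
  have h5 : (2 : N) ≠ 0 := two_ne_zero
  rw [gY_conic hq.le H hφ]
  refine ⟨by rw [natDegree_C_mul h5, h1], fun u hu => ?_, fun {M} _ f => ?_⟩
  · rw [eval_mul, eval_C] at hu
    have h6 := h2 u ((mul_eq_zero.1 hu).resolve_left h5)
    rw [dl_eq, ht_eq]
    exact h6
  · rw [roots_C_mul _ h5, ← h3 f]
    congr 1
    refine Multiset.map_congr rfl fun u _ => ?_
    rw [dl_eq, ht_eq]

end special

end Vale.Agent.P297.H54.Z2
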